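import Mathlib.Algebra.BigOperators.Fin
import Mathlib.Algebra.Order.BigOperators.Group.Finset
import Mathlib.Data.Finset.Card
import Mathlib.Data.Fintype.Powerset
import Mathlib.Data.Fintype.Pi
import Mathlib.Data.Fintype.Prod
import Mathlib.Data.Real.Basic
import Mathlib.Tactic.Linarith
import Mathlib.Tactic.Ring
import Mathlib.Tactic.FieldSimp
import Mathlib.Order.Lattice
import Mathlib.Data.Finset.Max

/-!
The rotation inequality for min cuts (gap case), counting measure.
-/

open Finset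

namespace Vale.Agent.P038.H424

variable {V : Type*} [Fintype V] [DecidableEq V]

/-- Closed out-neighbourhood of a set; `N x` is the closed out-neighbourhood of `x`. -/
def nb (N : V → Finset V) (S : Finset V) : Finset V := S.biUnion N

/-- Row dilation. -/
def EE (N : V → Finset V) (S : V → Finset V) : V → Finset V := fun a => nb N (S a)

/-- Column erosion: row `y` is the intersection of the rows over the closed in-neighbours. -/
def AA (N : V → Finset V) (S : V → Finset V) : V → Finset V :=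
  fun y => univ.filter fun b => ∀ x, y ∈ N x → b ∈ S x

/-- `|N[S]| - l |S|`. -/
noncomputable def F (N : V → Finset V) (l : ℝ) (S : Finset V) : ℝ :=
  ((nb N S).card : ℝ) - l * (S.card : ℝ)

/-- Number of pairs of a relation. -/
noncomputable def tot (S : V → Finset V) : ℝ := ∑ a, ((S a).card : ℝ)

/-- Sum of `F` over the rows. -/
noncomputable def Phi (N : V → Finset V) (l : ℝ) (S : V → Finset V) : ℝ := ∑ a, F N l (S a)

omit [Fintype V] in
lemma mem_nb {N : V → Finset V} {S : Finset V} {u : V} : u ∈ nb N S ↔ ∃ x ∈ S, u ∈ N x := by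
  simp [nb]

lemma mem_AA {N : V → Finset V} {S : V → Finset V} {y b : V} :
    b ∈ AA N S y ↔ ∀ x, y ∈ N x → b ∈ S x := by
  simp [AA]

omit [Fintype V] in
lemma F_submod (N : V → Finset V) (l : ℝ) (S T : Finset V) :
    F N l (S ∪ T) + F N l (S ∩ T) ≤ F N l S + F N l T := by
  have h1 : nb N (S ∪ T) = nb N S ∪ nb N T := by
    ext u
    simp only [mem_nb, mem_union]
    constructor
    · rintro ⟨x, hx | hx, h⟩
      · exact Or.inl ⟨x, hx, h⟩
      · exact Or.inr ⟨x, hx, h⟩
    · rintro (⟨x, hx, h⟩ | ⟨x, hx, h⟩)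
      · exact ⟨x, Or.inl hx, h⟩
      · exact ⟨x, Or.inr hx, h⟩
  have h2 : nb N (S ∩ T) ⊆ nb N S ∩ nb N T := by
    intro u hu
    obtain ⟨x, hx, h⟩ := mem_nb.1 hu
    rw [mem_inter] at hx
    exact mem_inter.2 ⟨mem_nb.2 ⟨x, hx.1, h⟩, mem_nb.2 ⟨x, hx.2, h⟩⟩
  have e3 : ((nb N S ∪ nb N T).card : ℝ) + ((nb N S ∩ nb N T).card : ℝ)
      = (nb N S).card + (nb N T).card := by
    exact_mod_cast card_union_add_card_inter (nb N S) (nb N T)
  have e4 : ((nb N (S ∩ T)).card : ℝ) ≤ (nb N S ∩ nb N T).card := by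
    exact_mod_cast card_le_card h2
  have e5 : ((S ∪ T).card : ℝ) + ((S ∩ T).card : ℝ) = S.card + T.card := by
    exact_mod_cast card_union_add_card_inter S T
  have e6 : l * ((S ∪ T).card : ℝ) + l * ((S ∩ T).card : ℝ) = l * S.card + l * T.card := by
    rw [← mul_add, e5, mul_add]
  unfold F
  rw [h1]
  linarith

lemma star (N : V → Finset V) (l : ℝ) (B U : V → Finset V)
    (hBU : ∀ a, B a ⊆ U a)
    (hR : ∀ a P, B a ⊆ P → P ⊆ U a → F N l (B a) ≤ F N l P)
    (y : V) (Z : Finset V) (hZ : ∀ x, y ∈ N x → Z ⊆ U x) :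
    F N l (Z ∩ AA N B y) ≤ F N l Z := by
  have key : ∀ s : Finset V, (∀ x ∈ s, y ∈ N x) →
      F N l (Z.filter fun b => ∀ x ∈ s, b ∈ B x) ≤ F N l Z := by
    intro s
    induction s using Finset.induction_on with
    | empty => intro _; simp
    | insert x s hx ih =>
      intro h
      have ih' := ih (fun z hz => h z (mem_insert_of_mem hz))
      have e : (Z.filter fun b => ∀ z ∈ insert x s, b ∈ B z)
          = (Z.filter fun b => ∀ z ∈ s, b ∈ B z) ∩ B x := by
        ext b
        simp only [mem_filter, mem_insert, mem_inter]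
        constructor
        · rintro ⟨h1, h2⟩
          exact ⟨⟨h1, fun z hz => h2 z (Or.inr hz)⟩, h2 x (Or.inl rfl)⟩
        · rintro ⟨⟨h1, h2⟩, h3⟩
          refine ⟨h1, fun z hz => ?_⟩
          rcases hz with rfl | hz
          · exact h3
          · exact h2 z hz
      rw [e]
      have hsub : (Z.filter fun b => ∀ z ∈ s, b ∈ B z) ⊆ U x :=
        (filter_subset _ _).trans (hZ x (h x (mem_insert_self _ _)))
      have h1 := F_submod N l (Z.filter fun b => ∀ z ∈ s, b ∈ B z) (B x)
      have h2 := hR x ((Z.filter fun b => ∀ z ∈ s, b ∈ B z) ∪ B x) subset_union_right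
        (union_subset hsub (hBU x))
      linarith
  have h := key (univ.filter fun x => y ∈ N x) (by simp)
  have e : (Z.filter fun b => ∀ x ∈ univ.filter (fun x => y ∈ N x), b ∈ B x) = Z ∩ AA N B y := by
    ext b
    simp [mem_AA]
  rwa [e] at h

lemma Phi_change (N : V → Finset V) (l l' : ℝ) (S : V → Finset V) :
    Phi N l S = Phi N l' S + (l' - l) * tot S := by
  unfold Phi tot F
  rw [mul_sum, ← sum_add_distrib]
  refine sum_congr rfl fun a _ => ?_
  ring

theorem key (N : V → Finset V) (n : ℕ) : ∀ (B U : V → Finset V) (l : ℝ),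
    (∑ a, (U a \ B a).card) = n → (∀ a, B a ⊆ U a) →
    (∀ a P, B a ⊆ P → P ⊆ U a → F N l (B a) ≤ F N l P) →
    (∀ Y : V → Finset V, (∀ a, B a ⊆ Y a) → (∀ a, Y a ⊆ U a) →
      tot U - tot Y ≤ tot (AA N U) - tot (AA N Y)) →
    Phi N l U - Phi N l B ≤ Phi N l (AA N U) - Phi N l (AA N B) := by
  induction n using Nat.strong_induction_on with
  | _ n ih =>
  intro B U l hn hBU hR hC
  by_cases hall : ∀ a, B a = U a
  · have : B = U := funext hall
    subst this
    simp
  push Not at hall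
  obtain ⟨a1, ha1⟩ := hall
  set T : Finset (V × Finset V) :=
    univ.filter (fun q => B q.1 ⊆ q.2 ∧ q.2 ⊆ U q.1 ∧ B q.1 ≠ q.2) with hT
  have hTne : T.Nonempty := ⟨(a1, U a1), by simp [hT, hBU a1, ha1]⟩
  have hmemT : ∀ q, q ∈ T ↔ B q.1 ⊆ q.2 ∧ q.2 ⊆ U q.1 ∧ B q.1 ≠ q.2 := by
    intro q; simp [hT]
  set ratio : V × Finset V → ℝ := fun q =>
    (((nb N q.2).card : ℝ) - ((nb N (B q.1)).card : ℝ)) / ((q.2.card : ℝ) - ((B q.1).card : ℝ))
    with hratio
  obtain ⟨q0, hq0, hmin⟩ := exists_min_image T ratio hTne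
  have hpos : ∀ q ∈ T, (0 : ℝ) < (q.2.card : ℝ) - ((B q.1).card : ℝ) := by
    intro q hq
    obtain ⟨h1, h2, h3⟩ := (hmemT q).1 hq
    have : (B q.1).card < q.2.card := card_lt_card (h1.ssubset_of_ne h3)
    have : ((B q.1).card : ℝ) < (q.2.card : ℝ) := by exact_mod_cast this
    linarith
  set l' : ℝ := ratio q0 with hl'
  have hp0 := hpos q0 hq0
  have heq0 : ((nb N q0.2).card : ℝ) - ((nb N (B q0.1)).card : ℝ)
      = l' * ((q0.2.card : ℝ) - ((B q0.1).card : ℝ)) := by
    rw [hl', hratio]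
    field_simp
  obtain ⟨h01, h02, h03⟩ := (hmemT q0).1 hq0
  have hll : l ≤ l' := by
    have h := hR q0.1 q0.2 h01 h02
    unfold F at h
    rw [hl', hratio]
    rw [le_div_iff₀ hp0]
    linarith
  have hR' : ∀ a P, B a ⊆ P → P ⊆ U a → F N l' (B a) ≤ F N l' P := by
    intro a P h1 h2
    by_cases h3 : B a = P
    · rw [h3]
    have hq : ((a, P) : V × Finset V) ∈ T := (hmemT _).2 ⟨h1, h2, h3⟩
    have h4 := hmin _ hq
    have h5 := hpos _ hq
    have h6 : l' * ((P.card : ℝ) - ((B a).card : ℝ))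
        ≤ ((nb N P).card : ℝ) - ((nb N (B a)).card : ℝ) := by
      have : l' ≤ (((nb N P).card : ℝ) - ((nb N (B a)).card : ℝ))
          / ((P.card : ℝ) - ((B a).card : ℝ)) := h4
      rwa [le_div_iff₀ h5] at this
    unfold F
    linarith
  set Y : V → Finset V := Function.update B q0.1 q0.2 with hYdef
  have hYself : Y q0.1 = q0.2 := by simp [hYdef]
  have hYne : ∀ a, a ≠ q0.1 → Y a = B a := by
    intro a ha; simp [hYdef, ha]
  have hBY : ∀ a, B a ⊆ Y a := by
    intro a
    by_cases h : a = q0.1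
    · rw [h, hYself]; exact h01
    · rw [hYne a h]
  have hYU : ∀ a, Y a ⊆ U a := by
    intro a
    by_cases h : a = q0.1
    · rw [h, hYself]; exact h02
    · rw [hYne a h]; exact hBU a
  have hFY : ∀ a, F N l' (Y a) = F N l' (B a) := by
    intro a
    by_cases h : a = q0.1
    · rw [h, hYself]
      unfold F
      linarith
    · rw [hYne a h]
  have hlt : (∑ a, (U a \ Y a).card) < n := by
    rw [← hn]
    refine sum_lt_sum (fun a _ => card_le_card (sdiff_subset_sdiff subset_rfl (hBY a)))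
      ⟨q0.1, mem_univ _, card_lt_card ?_⟩
    rw [hYself]
    refine Finset.ssubset_iff_of_subset (sdiff_subset_sdiff subset_rfl h01) |>.2 ?_
    obtain ⟨z, hz1, hz2⟩ := exists_of_ssubset (h01.ssubset_of_ne h03)
    exact ⟨z, mem_sdiff.2 ⟨h02 hz1, hz2⟩, fun h => (mem_sdiff.1 h).2 hz1⟩
  have hIH := ih _ hlt Y U l' rfl hYU
    (fun a P h1 h2 => by rw [hFY a]; exact hR' a P ((hBY a).trans h1) h2)
    (fun Y' h1 h2 => hC Y' (fun a => (hBY a).trans (h1 a)) h2)
  have hPY : Phi N l' Y = Phi N l' B := sum_congr rfl fun a _ => hFY a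
  have hstar : Phi N l' (AA N B) ≤ Phi N l' (AA N Y) := by
    refine sum_le_sum fun y _ => ?_
    have h := star N l' B U hBU hR' y (AA N Y y)
      (fun x hx b hb => hYU x (mem_AA.1 hb x hx))
    have e : AA N Y y ∩ AA N B y = AA N B y :=
      inter_eq_right.2 fun b hb => mem_AA.2 fun x hx => hBY x (mem_AA.1 hb x hx)
    rwa [e] at h
  have hC0 := hC B (fun a => subset_rfl) hBU
  have hm : (l' - l) * (tot U - tot B) ≤ (l' - l) * (tot (AA N U) - tot (AA N B)) :=
    mul_le_mul_of_nonneg_left hC0 (by linarith)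
  rw [Phi_change N l l' U, Phi_change N l l' B, Phi_change N l l' (AA N U),
    Phi_change N l l' (AA N B)]
  rw [hPY] at hIH
  have e1 : (l' - l) * (tot U - tot B) = (l' - l) * tot U - (l' - l) * tot B := by ring
  have e2 : (l' - l) * (tot (AA N U) - tot (AA N B))
      = (l' - l) * tot (AA N U) - (l' - l) * tot (AA N B) := by ring
  rw [e1, e2] at hm
  linarith

end Vale.Agent.P038.H424
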