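import Vale.Agent.P038.H424.Key

/-!
Comparison of the two min cuts: the column interior of an outer minimiser is inner feasible and
does not cost more.
-/

open Finset

namespace Vale.Agent.P038.H424

variable {V : Type*} [Fintype V] [DecidableEq V]

/-- Outer pairs. -/
structure Outer (N B C : V → Finset V) : Prop where
  hB : ∀ a, N a ⊆ B a
  hC : ∀ a, N a ⊆ C a
  orth : ∀ a b, b ∈ B a → a ∈ C b → a = b

/-- Inner pairs. -/
structure Inner (N X Y : V → Finset V) : Prop where
  hX : ∀ a, a ∈ X a
  hY : ∀ a, a ∈ Y a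
  orth : ∀ a b, b ∈ nb N (X a) → a ∈ nb N (Y b) → a = b

/-- The relation complementary to the transpose of `C`, with the diagonal. -/
def UU (C : V → Finset V) : V → Finset V := fun a => univ.filter fun b => b = a ∨ a ∉ C b

lemma mem_UU {C : V → Finset V} {a b : V} : b ∈ UU C a ↔ b = a ∨ a ∉ C b := by
  simp [UU]

lemma tot_col (S : V → Finset V) :
    tot S = ∑ b, (((univ.filter fun a => b ∈ S a)).card : ℝ) := by
  unfold tot
  have h : ∑ a, (S a).card = ∑ b, (univ.filter fun a => b ∈ S a).card := by
    have h1 : ∀ a, (S a).card = ∑ b, if b ∈ S a then 1 else 0 := by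
      intro a; simp
    have h2 : ∀ b, (univ.filter fun a => b ∈ S a).card = ∑ a, if b ∈ S a then 1 else 0 := by
      intro b; simp
    simp_rw [h1, h2]
    exact sum_comm
  exact_mod_cast h

lemma Phi_one (N S : V → Finset V) :
    Phi N 1 S = ∑ a, (((nb N (S a)).card : ℝ) - ((S a).card : ℝ)) := by
  unfold Phi F
  simp

lemma Phi_one' (N S : V → Finset V) : Phi N 1 S = tot (EE N S) - tot S := by
  rw [Phi_one]
  unfold tot EE
  rw [sum_sub_distrib]

lemma card_insert_compl {x : V} {S : Finset V} (h : x ∈ S) :
    ((insert x Sᶜ).card : ℝ) = (Fintype.card V : ℝ) - (S.card : ℝ) + 1 := by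
  have h1 : x ∉ Sᶜ := by simpa using h
  rw [card_insert_of_notMem h1]
  have h2 : S.card + Sᶜ.card = Fintype.card V := card_add_card_compl S
  have h3 : (S.card : ℝ) + (Sᶜ.card : ℝ) = (Fintype.card V : ℝ) := by exact_mod_cast h2
  push_cast
  linarith

variable {N B C : V → Finset V}

omit [Fintype V] [DecidableEq V] in
lemma eq_or_comm {a b : V} {p : Prop} (h : b = a ∨ p) : a = b ∨ p := h.imp Eq.symm id

lemma colU (b : V) :
    (univ.filter fun a => b ∈ UU C a) = insert b (C b)ᶜ := by
  ext a
  simp only [mem_filter, mem_univ, true_and, mem_UU, mem_insert, mem_compl]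
  constructor
  · rintro (rfl | h1)
    · exact Or.inl rfl
    · exact Or.inr h1
  · rintro (rfl | h1)
    · exact Or.inl rfl
    · exact Or.inr h1

lemma colAU (hN : ∀ x, x ∈ N x) (h : Outer N B C) (b : V) :
    (univ.filter fun y => b ∈ AA N (UU C) y) = insert b (nb N (C b))ᶜ := by
  ext y
  simp only [mem_filter, mem_univ, true_and, mem_AA, mem_UU, mem_insert, mem_compl, mem_nb]
  constructor
  · intro h1
    by_cases hy : y = b
    · exact Or.inl hy
    right
    rintro ⟨x, hx, hyx⟩
    rcases h1 x hyx with h2 | h2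
    · subst h2
      rcases h1 y (hN y) with h3 | h3
      · exact hy h3.symm
      · exact h3 (h.hC _ hyx)
    · exact h2 hx
  · rintro (rfl | h1) x hx
    · by_cases hxy : x ∈ C y
      · left
        exact (h.orth x y (h.hB x hx) hxy).symm
      · exact Or.inr hxy
    · right
      intro hxc
      exact h1 ⟨x, hxc, hx⟩

lemma costC (hN : ∀ x, x ∈ N x) (h : Outer N B C) :
    Phi N 1 C = tot (UU C) - tot (AA N (UU C)) := by
  rw [tot_col, tot_col, Phi_one, ← sum_sub_distrib]
  refine sum_congr rfl fun b _ => ?_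
  rw [colU b, colAU hN h b]
  have hb : b ∈ C b := h.hC b (hN b)
  have hb' : b ∈ nb N (C b) := mem_nb.2 ⟨b, hb, hN b⟩
  rw [card_insert_compl hb, card_insert_compl hb']
  ring

lemma costAC (hN : ∀ x, x ∈ N x) (h : Outer N B C) :
    Phi N 1 (AA N C) ≤ tot (EE N (UU C)) - tot (EE N (AA N (UU C))) := by
  rw [tot_col, tot_col, Phi_one, ← sum_sub_distrib]
  refine sum_le_sum fun x _ => ?_
  have hx : x ∈ AA N C x := mem_AA.2 fun z hz => h.hC z hz
  have hx' : x ∈ nb N (AA N C x) := mem_nb.2 ⟨x, hx, hN x⟩
  have e1 : (univ.filter fun a => x ∈ EE N (UU C) a) = insert x (AA N C x)ᶜ := by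
    ext a
    simp only [mem_filter, mem_univ, true_and, EE, mem_nb, mem_UU, mem_insert, mem_compl, mem_AA]
    constructor
    · rintro ⟨z, hz | hz, hxz⟩
      · subst hz
        by_cases hzx : z = x
        · exact Or.inl hzx
        right
        intro h1
        exact hzx (h.orth z x (h.hB z hxz) (h1 x (hN x)))
      · exact Or.inr fun h1 => hz (h1 z hxz)
    · rintro (rfl | h1)
      · exact ⟨a, Or.inl rfl, hN a⟩
      · push Not at h1
        obtain ⟨z, hz1, hz2⟩ := h1
        exact ⟨z, Or.inr hz2, hz1⟩
  have e2 : (univ.filter fun a => x ∈ EE N (AA N (UU C)) a) ⊆ insert x (nb N (AA N C x))ᶜ := by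
    intro a ha
    simp only [mem_filter, mem_univ, true_and, EE, mem_nb, mem_insert, mem_compl] at ha ⊢
    by_cases hax : a = x
    · exact Or.inl hax
    right
    obtain ⟨z, hz, hxz⟩ := ha
    rintro ⟨y, hy, hay⟩
    rw [mem_AA] at hz hy
    have h1 : y ∈ C z := hy z hxz
    have h2 : z = y := by
      rcases mem_UU.1 (hz y hay) with h3 | h3
      · exact h3
      · exact absurd h1 h3
    subst h2
    rcases mem_UU.1 (hz a (hN a)) with h3 | h3
    · subst h3
      exact hax (h.orth z x (h.hB z hxz) (hy x (hN x)))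
    · exact h3 (h.hC z hay)
  have e3 : (((univ.filter fun a => x ∈ EE N (AA N (UU C)) a)).card : ℝ)
      ≤ ((insert x (nb N (AA N C x))ᶜ).card : ℝ) := by exact_mod_cast card_le_card e2
  rw [card_insert_compl hx'] at e3
  rw [e1, card_insert_compl hx]
  linarith

lemma inner_AA (hN : ∀ x, x ∈ N x) (h : Outer N B C) : Inner N (AA N B) (AA N C) where
  hX a := mem_AA.2 fun x hx => h.hB x hx
  hY a := mem_AA.2 fun x hx => h.hC x hx
  orth a b h1 h2 := by
    obtain ⟨x, hx, hbx⟩ := mem_nb.1 h1
    obtain ⟨y, hy, hay⟩ := mem_nb.1 h2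
    rw [mem_AA] at hx hy
    have h3 : x ∈ B y := hx y hay
    have h4 : y ∈ C x := hy x hbx
    have h5 : y = x := h.orth y x h3 h4
    subst h5
    have h6 : a = y := h.orth a y (hx a (hN a)) (h.hC y hay)
    have h7 : y = b := h.orth y b (h.hB y hbx) (hy b (hN b))
    exact h6.trans h7

theorem rot (hN : ∀ x, x ∈ N x) (h : Outer N B C)
    (hmin : ∀ B' C' : V → Finset V, Outer N B' C' →
      Phi N 1 B + Phi N 1 C ≤ Phi N 1 B' + Phi N 1 C') :
    Phi N 1 (AA N B) + Phi N 1 (AA N C) ≤ Phi N 1 B + Phi N 1 C := by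
  have hBU : ∀ a, B a ⊆ UU C a := by
    intro a b hb
    rw [mem_UU]
    by_cases hba : b = a
    · exact Or.inl hba
    · exact Or.inr fun h1 => hba (h.orth a b hb h1).symm
  have hR : ∀ a P, B a ⊆ P → P ⊆ UU C a → F N 1 (B a) ≤ F N 1 P := by
    intro a P h1 h2
    have hO : Outer N (Function.update B a P) C := by
      refine ⟨fun x => ?_, h.hC, fun x b hb hx => ?_⟩
      · by_cases hxa : x = a
        · subst hxa
          simpa using (h.hB x).trans h1
        · simpa [hxa] using h.hB x
      · by_cases hxa : x = a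
        · subst hxa
          have hb' : b ∈ P := by simpa using hb
          rcases mem_UU.1 (h2 hb') with h3 | h3
          · exact h3.symm
          · exact absurd hx h3
        · have hb' : b ∈ B x := by simpa [hxa] using hb
          exact h.orth x b hb' hx
    have h3 := hmin _ _ hO
    have h4 : Phi N 1 (Function.update B a P) = Phi N 1 B - F N 1 (B a) + F N 1 P := by
      unfold Phi
      rw [← add_sum_erase univ _ (mem_univ a), ← add_sum_erase univ (fun x => F N 1 (B x))
        (mem_univ a)]
      have h5 : ∑ x ∈ univ.erase a, F N 1 (Function.update B a P x)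
          = ∑ x ∈ univ.erase a, F N 1 (B x) :=
        sum_congr rfl fun x hx => by rw [Function.update_of_ne (ne_of_mem_erase hx)]
      rw [h5, Function.update_self]
      ring
    rw [h4] at h3
    linarith
  have hCc : ∀ Y : V → Finset V, (∀ a, B a ⊆ Y a) → (∀ a, Y a ⊆ UU C a) →
      tot (UU C) - tot Y ≤ tot (AA N (UU C)) - tot (AA N Y) := by
    intro Y h1 h2
    set C' : V → Finset V := fun b => univ.filter fun a => a = b ∨ b ∉ Y a with hC'
    have hO : Outer N B C' := by
      refine ⟨h.hB, fun b a ha => ?_, fun a b hb ha => ?_⟩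
      · simp only [hC', mem_filter, mem_univ, true_and]
        by_cases hab : a = b
        · exact Or.inl hab
        right
        intro h3
        rcases mem_UU.1 (h2 a h3) with h4 | h4
        · exact hab h4.symm
        · exact h4 (h.hC b ha)
      · simp only [hC', mem_filter, mem_univ, true_and] at ha
        rcases ha with h3 | h3
        · exact h3
        · exact absurd (h1 a hb) h3
    have hUY : UU C' = Y := by
      funext a
      ext b
      simp only [mem_UU, hC', mem_filter, mem_univ, true_and, not_or, not_not]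
      constructor
      · rintro (rfl | ⟨-, h3⟩)
        · exact h1 b (h.hB b (hN b))
        · exact h3
      · intro h3
        by_cases hab : b = a
        · exact Or.inl hab
        · exact Or.inr ⟨fun h4 => hab h4.symm, h3⟩
    have h3 := hmin _ _ hO
    rw [costC hN h, costC hN hO, hUY] at h3
    linarith
  have hkey := key N _ B (UU C) 1 rfl hBU hR hCc
  have h1 := costAC hN h
  have h2 := costC hN h
  rw [Phi_one' N (UU C), Phi_one' N (AA N (UU C))] at hkey
  linarith

end Vale.Agent.P038.H424
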