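import Vale.Agent.P038.H424.Rot
import Vale.Agent.P038.Defs

/-!
Seymour's second neighbourhood conjecture.
-/

open Finset

namespace Vale.Agent.P038.H424

variable {V : Type*} [Fintype V] [DecidableEq V]

omit [Fintype V] in
lemma nb_union (N : V → Finset V) (S T : Finset V) : nb N (S ∪ T) = nb N S ∪ nb N T := by
  ext u
  simp only [mem_nb, mem_union]
  constructor
  · rintro ⟨x, hx | hx, h⟩
    · exact Or.inl ⟨x, hx, h⟩
    · exact Or.inr ⟨x, hx, h⟩
  · rintro (⟨x, hx, h⟩ | ⟨x, hx, h⟩)
    · exact ⟨x, Or.inl hx, h⟩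
    · exact ⟨x, Or.inr hx, h⟩

omit [Fintype V] in
lemma nb_mono (N : V → Finset V) {S T : Finset V} (h : S ⊆ T) : nb N S ⊆ nb N T := by
  intro u hu
  obtain ⟨x, hx, hux⟩ := mem_nb.1 hu
  exact mem_nb.2 ⟨x, h hx, hux⟩

/-- A counterexample, in terms of closed out-neighbourhoods. -/
structure CE (N : V → Finset V) : Prop where
  refl : ∀ x, x ∈ N x
  anti : ∀ x y, y ∈ N x → x ∈ N y → x = y
  ce : ∀ v, (nb N (N v)).card + 2 ≤ 2 * (N v).card

omit [Fintype V] in
lemma sub_nb {N : V → Finset V} (hN : ∀ x, x ∈ N x) (S : Finset V) : S ⊆ nb N S :=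
  fun x hx => mem_nb.2 ⟨x, hx, hN x⟩

/-- The set form of the inequality, for a counterexample with the least number of arcs. -/
theorem setG {N : V → Finset V} (h : CE N)
    (hmin : ∀ N' : V → Finset V, CE N' → ∑ v, (N v).card ≤ ∑ v, (N' v).card)
    (X : Finset V) (hX : ¬ nb N X ⊆ X) :
    (nb N (nb N X)).card + X.card < 2 * (nb N X).card := by
  by_contra hcon
  push Not at hcon
  set L : Finset V := nb N X \ X with hL
  set d : Finset V → ℤ := fun T => ((nb N T \ X).card : ℤ) - 2 * (T.card : ℤ) with hd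
  have hXL : X ∪ L = nb N X := by
    rw [hL, union_sdiff_of_subset (sub_nb h.refl X)]
  have hdL : 0 ≤ d L := by
    have e1 : nb N (nb N X) = nb N L ∪ X := by
      conv_lhs => rw [← hXL, nb_union, ← hXL]
      have h1 : L ⊆ nb N L := sub_nb h.refl L
      ext u
      simp only [mem_union]
      constructor
      · rintro ((h2 | h2) | h2)
        · exact Or.inr h2
        · exact Or.inl (h1 h2)
        · exact Or.inl h2
      · rintro (h2 | h2)
        · exact Or.inr h2
        · exact Or.inl (Or.inl h2)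
    have e2 : (nb N L \ X).card + X.card = (nb N L ∪ X).card := card_sdiff_add_card _ _
    have e3 : (nb N X \ X).card + X.card = (nb N X ∪ X).card := card_sdiff_add_card _ _
    have e4 : nb N X ∪ X = nb N X := union_eq_left.2 (sub_nb h.refl X)
    rw [e4] at e3
    rw [e1] at hcon
    simp only [hd]
    have e5 : L.card = (nb N X \ X).card := by rw [hL]
    omega
  have hLne : L.Nonempty := by
    by_contra h1
    rw [not_nonempty_iff_eq_empty, hL, sdiff_eq_empty_iff_subset] at h1
    exact hX h1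
  obtain ⟨T, hT, hTmin⟩ := exists_min_image L.ssubsets d
    ⟨∅, mem_ssubsets.2 (empty_ssubset.2 hLne)⟩
  rw [mem_ssubsets] at hT
  have hd0 : d ∅ = 0 := by simp [hd, nb]
  have hTd : ∀ T', T' ⊆ L → d T ≤ d T' := by
    intro T' h1
    by_cases h2 : T' = L
    · rw [h2]
      have h3 := hTmin ∅ (mem_ssubsets.2 (empty_ssubset.2 hLne))
      rw [hd0] at h3
      exact h3.trans hdL
    · exact hTmin T' (mem_ssubsets.2 (h1.ssubset_of_ne h2))
  set N' : V → Finset V := fun v => if v ∈ X then N v ∩ (X ∪ T) else N v with hN'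
  have hNX : ∀ v, v ∈ X → N' v = N v ∩ (X ∪ T) := fun v hv => by simp [hN', hv]
  have hNn : ∀ v, v ∉ X → N' v = N v := fun v hv => by simp [hN', hv]
  have hNN : ∀ v, N' v ⊆ N v := by
    intro v
    by_cases hv : v ∈ X
    · rw [hNX v hv]; exact inter_subset_left
    · rw [hNn v hv]
  have hCE' : CE N' := by
    refine ⟨fun x => ?_, fun x y h1 h2 => h.anti x y (hNN x h1) (hNN y h2), fun v => ?_⟩
    · by_cases hx : x ∈ X
      · rw [hNX x hx]
        exact mem_inter.2 ⟨h.refl x, mem_union_left _ hx⟩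
      · rw [hNn x hx]; exact h.refl x
    · by_cases hv : v ∈ X
      · set D : Finset V := N v \ (X ∪ T) with hD
        have hDL : D ⊆ L := by
          intro u hu
          rw [hD, mem_sdiff, mem_union, not_or] at hu
          exact mem_sdiff.2 ⟨mem_nb.2 ⟨v, hv, hu.1⟩, hu.2.1⟩
        have hTD : d T ≤ d (T ∪ D) := hTd _ (union_subset hT.1 hDL)
        have hdisj : Disjoint T D := by
          rw [disjoint_left]
          intro u h1 h2
          rw [hD, mem_sdiff, mem_union, not_or] at h2
          exact h2.2.2 h1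
        have c1 : (T ∪ D).card = T.card + D.card := card_union_of_disjoint hdisj
        have c2 : (N' v).card + D.card = (N v).card := by
          rw [hNX v hv, hD]
          exact card_inter_add_card_sdiff _ _
        set E : Finset V := nb N D \ (nb N T ∪ X) with hE
        have c3 : (nb N (T ∪ D) \ X).card ≤ (nb N T \ X).card + E.card := by
          refine (card_le_card ?_).trans (card_union_le _ _)
          intro u hu
          rw [mem_sdiff, nb_union, mem_union] at hu
          rw [mem_union, mem_sdiff, hE, mem_sdiff, mem_union, not_or]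
          by_cases h1 : u ∈ nb N T
          · exact Or.inl ⟨h1, hu.2⟩
          · exact Or.inr ⟨hu.1.resolve_left h1, h1, hu.2⟩
        have c4 : (nb N' (N' v)).card + E.card ≤ (nb N (N v)).card := by
          have hsub : nb N' (N' v) ⊆ nb N (N v) \ E := by
            intro u hu
            obtain ⟨c, hc, huc⟩ := mem_nb.1 hu
            refine mem_sdiff.2 ⟨mem_nb.2 ⟨c, hNN v hc, hNN c huc⟩, fun hE' => ?_⟩
            rw [hE, mem_sdiff, mem_union, not_or] at hE'
            rw [hNX v hv, mem_inter, mem_union] at hc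
            by_cases hcX : c ∈ X
            · rw [hNX c hcX, mem_inter, mem_union] at huc
              rcases huc.2 with h1 | h1
              · exact hE'.2.2 h1
              · exact hE'.2.1 (sub_nb h.refl T h1)
            · exact hE'.2.1 (mem_nb.2 ⟨c, hc.2.resolve_left hcX, hNN c huc⟩)
          have hEsub : E ⊆ nb N (N v) :=
            sdiff_subset.trans (nb_mono N (by rw [hD]; exact sdiff_subset))
          have h1 := card_le_card hsub
          have h2 : (nb N (N v) \ E).card + E.card = (nb N (N v)).card :=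
            card_sdiff_add_card_eq_card hEsub
          omega
        have c5 := h.ce v
        simp only [hd] at hTD
        omega
      · rw [hNn v hv]
        have h1 : nb N' (N v) ⊆ nb N (N v) := by
          intro u hu
          obtain ⟨c, hc, huc⟩ := mem_nb.1 hu
          exact mem_nb.2 ⟨c, hc, hNN c huc⟩
        have h2 := card_le_card h1
        have h3 := h.ce v
        omega
  have hlt : ∑ v, (N' v).card < ∑ v, (N v).card := by
    obtain ⟨z, hz, hzT⟩ := exists_of_ssubset hT
    rw [hL, mem_sdiff] at hz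
    obtain ⟨x, hx, hzx⟩ := mem_nb.1 hz.1
    refine sum_lt_sum (fun v _ => card_le_card (hNN v)) ⟨x, mem_univ _, card_lt_card ?_⟩
    refine (Finset.ssubset_iff_of_subset (hNN x)).2 ⟨z, hzx, fun h1 => ?_⟩
    rw [hNX x hx, mem_inter, mem_union] at h1
    rcases h1.2 with h2 | h2
    · exact hz.2 h2
    · exact hzT h2
  exact absurd (hmin N' hCE') (not_le.2 hlt)

lemma exists_minimiser {α β : Type*} [Finite α] [LinearOrder β] (p : α → Prop) (hp : ∃ a, p a)
    (f : α → β) : ∃ a, p a ∧ ∀ b, p b → f a ≤ f b := by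
  classical
  haveI := Fintype.ofFinite α
  obtain ⟨a0, ha0⟩ := hp
  obtain ⟨a, ha, h⟩ := exists_min_image (univ.filter p) f ⟨a0, by simpa using ha0⟩
  exact ⟨a, by simpa using ha, fun b hb => h b (by simpa using hb)⟩

theorem no_CE [Nonempty V] (N₀ : V → Finset V) (h₀ : CE N₀) : False := by
  obtain ⟨N, h, hmin⟩ := exists_minimiser (fun N : V → Finset V => CE N) ⟨N₀, h₀⟩
    (fun N => ∑ v, (N v).card)
  have hN := h.refl
  have hG : ∀ S : Finset V, F N 1 (nb N S) ≤ F N 1 S := by
    intro S
    by_cases hS : nb N S ⊆ S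
    · have e : nb N S = S := subset_antisymm hS (sub_nb hN S)
      rw [e]
    · have h1 := setG h hmin S hS
      have h2 : ((nb N (nb N S)).card : ℝ) + (S.card : ℝ) < 2 * ((nb N S).card : ℝ) := by
        exact_mod_cast h1
      unfold F
      linarith
  have hGs : ∀ S : Finset V, ¬ nb N S ⊆ S → F N 1 (nb N S) < F N 1 S := by
    intro S hS
    have h1 := setG h hmin S hS
    have h2 : ((nb N (nb N S)).card : ℝ) + (S.card : ℝ) < 2 * ((nb N S).card : ℝ) := by
      exact_mod_cast h1
    unfold F
    linarith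
  obtain ⟨⟨X, Y⟩, hXY, hImin⟩ := exists_minimiser
    (fun q : (V → Finset V) × (V → Finset V) => Inner N q.1 q.2)
    ⟨(fun a => {a}, fun a => {a}), ⟨fun a => by simp, fun a => by simp, fun a b h1 h2 => by
      obtain ⟨x, hx, h3⟩ := mem_nb.1 h1
      obtain ⟨y, hy, h4⟩ := mem_nb.1 h2
      simp only [mem_singleton] at hx hy
      subst hx; subst hy
      exact h.anti _ _ h3 h4⟩⟩
    (fun q => Phi N 1 q.1 + Phi N 1 q.2)
  obtain ⟨⟨B, C⟩, hBC, hOmin⟩ := exists_minimiser
    (fun q : (V → Finset V) × (V → Finset V) => Outer N q.1 q.2)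
    ⟨(N, N), ⟨fun a => subset_rfl, fun a => subset_rfl, fun a b h1 h2 => h.anti a b h1 h2⟩⟩
    (fun q => Phi N 1 q.1 + Phi N 1 q.2)
  have hrot := rot hN hBC (fun B' C' h1 => hOmin (B', C') h1)
  have h1 := hImin (AA N B, AA N C) (inner_AA hN hBC)
  have hO : Outer N (EE N X) (EE N Y) :=
    ⟨fun a u hu => mem_nb.2 ⟨a, hXY.hX a, hu⟩, fun a u hu => mem_nb.2 ⟨a, hXY.hY a, hu⟩, hXY.orth⟩
  have h2 := hOmin (EE N X, EE N Y) hO
  have hYle : Phi N 1 (EE N Y) ≤ Phi N 1 Y := sum_le_sum fun a _ => hG (Y a)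
  have hex : ∃ a, ¬ nb N (X a) ⊆ X a := by
    by_contra hall
    push Not at hall
    obtain ⟨S, ⟨hSne, hScl⟩, hSmin⟩ := exists_minimiser
      (fun S : Finset V => S.Nonempty ∧ nb N S ⊆ S) ⟨univ, univ_nonempty, subset_univ _⟩
      (fun S => S.card)
    obtain ⟨b, hb⟩ := hSne
    have hcb := h.ce b
    have hcb2 := card_le_card (sub_nb hN (N b))
    have hb1 : 1 < (N b).card := by omega
    obtain ⟨a, ha, hab⟩ := exists_mem_ne hb1 b
    have haS : a ∈ S := hScl (mem_nb.2 ⟨b, hb, ha⟩)
    have hcl : nb N (X a ∩ S) ⊆ X a ∩ S := by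
      intro u hu
      exact mem_inter.2 ⟨hall a (nb_mono N inter_subset_left hu),
        hScl (nb_mono N inter_subset_right hu)⟩
    have hcard := hSmin (X a ∩ S) ⟨⟨a, mem_inter.2 ⟨hXY.hX a, haS⟩⟩, hcl⟩
    have hSeq : X a ∩ S = S := eq_of_subset_of_card_le inter_subset_right hcard
    have hbX : b ∈ X a := by
      have : b ∈ X a ∩ S := by rw [hSeq]; exact hb
      exact (mem_inter.1 this).1
    exact hab (hXY.orth a b (sub_nb hN _ hbX) (mem_nb.2 ⟨b, hXY.hY b, ha⟩))
  obtain ⟨a, ha⟩ := hex
  have hXlt : Phi N 1 (EE N X) < Phi N 1 X :=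
    sum_lt_sum (fun x _ => hG (X x)) ⟨a, mem_univ _, hGs (X a) ha⟩
  simp only at h1 h2 hImin
  linarith

/-- Seymour's second neighbourhood conjecture. -/
theorem seymour {V : Type*} [Fintype V] [Nonempty V] (D : OGraph V) :
    ∃ v, (N1 D v).card ≤ (N2 D v).card := by
  classical
  by_contra hcon
  push Not at hcon
  refine no_CE (fun v => insert v (N1 D v)) ⟨fun x => mem_insert_self _ _, fun x y h1 h2 => ?_,
    fun v => ?_⟩
  · rcases mem_insert.1 h1 with h3 | h3
    · exact h3.symm
    rcases mem_insert.1 h2 with h4 | h4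
    · exact h4
    · exact absurd (mem_N1.1 h4) (D.asymm _ _ (mem_N1.1 h3))
  · have e : nb (fun v => insert v (N1 D v)) (insert v (N1 D v))
        = insert v (N1 D v ∪ N2 D v) := by
      ext u
      simp only [mem_nb, mem_insert, mem_union]
      constructor
      · rintro ⟨x, rfl | hx, rfl | hu⟩
        · exact Or.inl rfl
        · exact Or.inr (Or.inl hu)
        · exact Or.inr (Or.inl hx)
        · by_cases h1 : u = v
          · exact Or.inl h1
          right
          by_cases h2 : u ∈ N1 D v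
          · exact Or.inl h2
          · exact Or.inr (mem_N2.2 ⟨h1, fun h3 => h2 (mem_N1.2 h3), x, mem_N1.1 hx, mem_N1.1 hu⟩)
      · rintro (rfl | hu | hu)
        · exact ⟨u, Or.inl rfl, Or.inl rfl⟩
        · exact ⟨u, Or.inr hu, Or.inl rfl⟩
        · obtain ⟨h1, h2, x, h3, h4⟩ := mem_N2.1 hu
          exact ⟨x, Or.inr (mem_N1.2 h3), Or.inr (mem_N1.2 h4)⟩
    have hv1 : v ∉ N1 D v := fun h1 => D.loopless v (mem_N1.1 h1)
    have hv2 : v ∉ N1 D v ∪ N2 D v := by
      rw [mem_union, not_or]
      exact ⟨hv1, fun h1 => (mem_N2.1 h1).1 rfl⟩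
    have hdis : Disjoint (N1 D v) (N2 D v) := by
      rw [disjoint_left]
      intro u h1 h2
      exact (mem_N2.1 h2).2.1 (mem_N1.1 h1)
    show (nb (fun v => insert v (N1 D v)) (insert v (N1 D v))).card + 2
      ≤ 2 * (insert v (N1 D v)).card
    rw [e, card_insert_of_notMem hv2, card_insert_of_notMem hv1, card_union_of_disjoint hdis]
    have := hcon v
    omega

end Vale.Agent.P038.H424
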